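import Vale.Agent.P133OD.Lev

/-! Domination: approximate intertwiners between families of isometries. -/

open Finset

namespace Vale.Agent.P133OD

variable {B : Type*} [NonUnitalCStarAlgebra B] {ι : Type*} [Fintype ι] [DecidableEq ι]

/-- `R k = ∑_{|μ| = k} s_μ r t_μ*`. -/
def R (s t : ι → B) (r : B) (k : ℕ) : B := (sg s t)^[k] r

/-- The level preserving isometry. -/
def V (f : B) (s t : ι → B) (r : B) (J : ℕ) : B := ∑ j ∈ range (J + 1), R s t r j * P f t J j

/-- The averaged isometry. -/
noncomputable def U (s t : ι → B) (r : B) (N : ℕ) : B :=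
  (√(N : ℝ))⁻¹ • ∑ k ∈ range N, R s t r k

/-- The angles. -/
noncomputable def ang (N j : ℕ) : ℝ := Real.pi / 2 * ((min (j - N) N : ℕ) / N)

/-- The approximate intertwiner. -/
noncomputable def dom (f : B) (s t : ι → B) (r : B) (N : ℕ) : B :=
  V f s t r (2 * N) * L f t (2 * N) (fun j => Real.cos (ang N j)) +
    U s t r N * L f t (2 * N) (fun j => Real.sin (ang N j))

theorem ang_low {N j : ℕ} (h : j ≤ N) : ang N j = 0 := by
  simp [ang, Nat.sub_eq_zero_of_le h]

theorem ang_high {N j : ℕ} (hN : 0 < N) (h : 2 * N ≤ j) : ang N j = Real.pi / 2 := by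
  have : (N : ℝ) ≠ 0 := by positivity
  rw [ang, min_eq_right (by omega), div_self this, mul_one]

theorem ang_step {N : ℕ} (hN : 0 < N) (j : ℕ) : |ang N (j + 1) - ang N j| ≤ 2 / N := by
  have h0 : (0 : ℝ) < N := by positivity
  have h1 : ((min (j - N) N : ℕ) : ℝ) ≤ (min (j + 1 - N) N : ℕ) := by
    exact_mod_cast (by omega : min (j - N) N ≤ min (j + 1 - N) N)
  have h2 : ((min (j + 1 - N) N : ℕ) : ℝ) ≤ (min (j - N) N : ℕ) + 1 := by
    exact_mod_cast (by omega : min (j + 1 - N) N ≤ min (j - N) N + 1)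
  rw [ang, ang, ← mul_sub, ← sub_div, abs_of_nonneg (by have := Real.pi_pos; positivity),
    ← mul_div_assoc]
  refine div_le_div_of_nonneg_right ?_ h0.le
  have := Real.pi_le_four
  have := Real.pi_pos
  nlinarith

section
omit [DecidableEq ι]

theorem R_succ (s t : ι → B) (r : B) (k : ℕ) : R s t r (k + 1) = sg s t (R s t r k) :=
  Function.iterate_succ_apply' _ _ _

theorem sub_sg_U (s t : ι → B) (r : B) (N : ℕ) :
    U s t r N - sg s t (U s t r N) = (√(N : ℝ))⁻¹ • (R s t r 0 - R s t r N) := by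
  rw [U, sg_smul, sg_sum, ← smul_sub, ← sum_sub_distrib]
  simp only [← R_succ]
  rw [sum_range_sub']

end

variable {e f : B} {s t : ι → B}

/-- `r` lies in the defect of `(e, s)` and `r f = r`. -/
structure Def (e f : B) (s : ι → B) (r : B) : Prop where
  left : e * r = r
  right : r * f = r
  perp : ∀ i, star (s i) * r = 0

theorem left_R (hs : CT e s) {r : B} (hr : Def e f s r) : ∀ k, e * R s t r k = R s t r k
  | 0 => hr.left
  | k + 1 => by rw [R_succ, hs.left_sg]

theorem R_right (ht : CT f t) {r : B} (hr : Def e f s r) : ∀ k, R s t r k * f = R s t r k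
  | 0 => hr.right
  | k + 1 => by rw [R_succ, ht.sg_right]

omit [DecidableEq ι] in
theorem star_mul_R_succ {r r' : B} (hr : Def e f s r) (k : ℕ) :
    star r * R s t r' (k + 1) = 0 := by
  have h (i : ι) : star r * s i = 0 := by
    have := congrArg star (hr.perp i); simpa using this
  simp only [R_succ, sg, mul_sum, ← mul_assoc, h, zero_mul, sum_const_zero]

theorem star_R_mul_R (hs : CT e s) {r r' : B} (hr : Def e f s r) (hr' : Def e f s r') {c : ℝ}
    (h : star r * r' = c • f) :
    ∀ k l, star (R s t r k) * R s t r' l = if k = l then c • Q f t k else 0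
  | 0, 0 => by simpa [R, Q] using h
  | 0, l + 1 => by rw [if_neg (by omega)]; exact star_mul_R_succ hr l
  | k + 1, 0 => by
    rw [if_neg (by omega)]
    have := congrArg star (star_mul_R_succ (t := t) (r' := r) hr' k)
    simpa [R] using this
  | k + 1, l + 1 => by
    rw [R_succ, R_succ, star_sg, hs.sg_mul_sg, mul_assoc, left_R hs hr',
      star_R_mul_R hs hr hr' h k l]
    by_cases hkl : k = l
    · simp [hkl, sg_smul, Q_succ]
    · simp [hkl, sg_zero]

theorem V_mul_P (ht : CT f t) (r : B) {J j : ℕ} (hj : j ≤ J) :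
    V f s t r J * P f t J j = R s t r j * P f t J j := by
  rw [V, sum_mul, sum_eq_single j]
  · rw [mul_assoc, ht.P_mul_P hj hj, if_pos rfl]
  · intro k hk hkj
    rw [mul_assoc, ht.P_mul_P (Nat.lt_succ_iff.1 (mem_range.1 hk)) hj, if_neg hkj, mul_zero]
  · intro hn; exact absurd (mem_range.2 (by omega)) hn

theorem V_mul_L (ht : CT f t) (r : B) (J : ℕ) (a : ℕ → ℝ) :
    V f s t r J * L f t J a = ∑ j ∈ range (J + 1), a j • (R s t r j * P f t J j) := by
  rw [L, mul_sum]
  refine sum_congr rfl fun j hj => ?_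
  rw [mul_smul_comm, V_mul_P ht r (Nat.lt_succ_iff.1 (mem_range.1 hj))]

theorem star_V_mul_R (hs : CT e s) (ht : CT f t) {r r' : B} (hr : Def e f s r)
    (hr' : Def e f s r') {c : ℝ} (h : star r * r' = c • f) {J k : ℕ} (hk : k ≤ J) :
    star (V f s t r J) * R s t r' k = c • P f t J k := by
  rw [V, star_sum, sum_mul, sum_eq_single k]
  · rw [star_mul, ht.star_P, mul_assoc, star_R_mul_R hs hr hr' h, if_pos rfl, mul_smul_comm,
      ht.P_mul_Q le_rfl]
  · intro j _ hj
    rw [star_mul, mul_assoc, star_R_mul_R hs hr hr' h, if_neg hj, mul_zero]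
  · intro hn; exact absurd (mem_range.2 (by omega)) hn

theorem star_V_mul_V (hs : CT e s) (ht : CT f t) {r r' : B} (hr : Def e f s r)
    (hr' : Def e f s r') {c : ℝ} (h : star r * r' = c • f) (J : ℕ) :
    star (V f s t r J) * V f s t r' J = c • f := by
  conv_lhs => rw [V.eq_1 f s t r', mul_sum]
  conv_rhs => rw [← sum_P f t J, smul_sum]
  refine sum_congr rfl fun j hj => ?_
  have hj := Nat.lt_succ_iff.1 (mem_range.1 hj)
  rw [← mul_assoc, star_V_mul_R hs ht hr hr' h hj, smul_mul_assoc, ht.P_mul_P hj hj, if_pos rfl]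

theorem star_U_mul_U (hs : CT e s) {r r' : B} (hr : Def e f s r) (hr' : Def e f s r') {c : ℝ}
    (h : star r * r' = c • f) (N : ℕ) :
    star (U s t r N) * U s t r' N = ((N : ℝ)⁻¹ * c) • ∑ k ∈ range N, Q f t k := by
  rw [U, U, star_smul, star_trivial, smul_mul_smul_comm, ← mul_inv,
    Real.mul_self_sqrt (Nat.cast_nonneg N), mul_smul, star_sum, sum_mul, smul_sum (r := c)]
  congr 1
  refine sum_congr rfl fun k hk => ?_
  simp only [mul_sum, star_R_mul_R hs hr hr' h, sum_ite_eq, hk, if_true]

theorem norm_le_one_of {x y : B} (h : star x * x = y) (hy : ‖y‖ ≤ 1) : ‖x‖ ≤ 1 := by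
  rw [← h, CStarRing.norm_star_mul_self] at hy
  nlinarith [norm_nonneg x]

theorem Q_mul_L (ht : CT f t) {J k : ℕ} {b : ℕ → ℝ} (hb : ∀ j < k, b j = 0) :
    Q f t k * L f t J b = L f t J b := by
  rw [L, mul_sum]
  refine sum_congr rfl fun j _ => ?_
  rcases lt_or_ge j k with hj | hj
  · simp [hb j hj]
  · have := congrArg star (ht.P_mul_Q (J := J) hj)
    rw [star_mul, ht.star_P, ht.star_Q] at this
    rw [mul_smul_comm, this]

theorem star_dom_mul_dom (hs : CT e s) (ht : CT f t) {r r' : B} (hr : Def e f s r)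
    (hr' : Def e f s r') {c : ℝ} (h : star r * r' = c • f) {N : ℕ} (hN : 0 < N) :
    star (dom f s t r N) * dom f s t r' N = c • f := by
  have h' : star r' * r = c • f := by
    have := congrArg star h
    rwa [star_mul, star_star, star_smul, star_trivial c, ht.star_eq] at this
  set b : ℕ → ℝ := fun j => Real.sin (ang N j) with hb
  set a : ℕ → ℝ := fun j => Real.cos (ang N j) with ha
  have hb0 : ∀ j ≤ N, b j = 0 := fun j hj => by simp [hb, ang_low hj]
  have cross : ∀ {x y : B}, Def e f s x → Def e f s y → star x * y = c • f →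
      star (V f s t x (2 * N)) * (U s t y N * L f t (2 * N) b) = 0 := by
    intro x y hx hy hxy
    rw [U, smul_mul_assoc, mul_smul_comm, sum_mul, mul_sum, sum_eq_zero, smul_zero]
    intro k hk
    have hk := mem_range.1 hk
    rw [← mul_assoc, star_V_mul_R hs ht hx hy hxy (by omega), smul_mul_assoc,
      ht.P_mul_L (by omega), hb0 k hk.le, zero_smul, smul_zero]
  have c2 := congrArg star (cross hr' hr h')
  rw [star_mul, star_star, star_zero] at c2
  have hUU : star (U s t r N) * (U s t r' N * L f t (2 * N) b) = c • L f t (2 * N) b := by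
    rw [← mul_assoc, star_U_mul_U hs hr hr' h, smul_mul_assoc, sum_mul,
      sum_congr rfl fun k hk => Q_mul_L ht fun j hj => hb0 j (by have := mem_range.1 hk; omega),
      sum_const, card_range, ← Nat.cast_smul_eq_nsmul ℝ, smul_smul]
    congr 1
    field_simp
  rw [dom, dom, ← hb, ← ha, star_add, add_mul, mul_add, mul_add, ← mul_assoc (star (U s t r N * _)),
    c2, zero_mul, star_mul, star_mul, mul_assoc, mul_assoc, mul_assoc, cross hr hr' h, hUU,
    ← mul_assoc (star (V f s t r _)), star_V_mul_V hs ht hr hr' h, ht.star_L, ht.star_L,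
    smul_mul_assoc, ht.left_L, mul_smul_comm, mul_smul_comm, ht.L_mul_L, ht.L_mul_L, mul_zero,
    add_zero, zero_add, ← smul_add, L_add]
  congr 1
  rw [L_congr f t _ (b := fun _ => 1) fun j _ => ?_, L_one]
  simp only [ha, hb]
  nlinarith [Real.cos_sq_add_sin_sq (ang N j)]

theorem left_dom (hs : CT e s) {r : B} (hr : Def e f s r) (N : ℕ) :
    e * dom f s t r N = dom f s t r N := by
  simp only [dom, V, U, mul_add, ← mul_assoc, mul_sum, mul_smul_comm, left_R hs hr]

theorem dom_right (ht : CT f t) (r : B) (N : ℕ) : dom f s t r N * f = dom f s t r N := by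
  simp only [dom, add_mul, mul_assoc, ht.L_right]

theorem sg_V (ht : CT f t) {r : B} (hr : Def e f s r) (J : ℕ) :
    sg s t (V f s t r J) = V f s t r (J + 1) - r * P f t (J + 1) 0 := by
  conv_rhs => rw [V, sum_range_succ']
  rw [V, sg_sum, show R s t r 0 = r from rfl, add_sub_cancel_right]
  refine sum_congr rfl fun j _ => ?_
  rw [R_succ, ← sg_P, ht.sg_mul_sg, R_right ht hr]

/-- The differences of a sequence. -/
def df (a : ℕ → ℝ) : ℕ → ℝ
  | 0 => 0
  | j + 1 => a (j + 1) - a j

theorem dom_defect (hs : CT e s) (ht : CT f t) {r : B} (hr : Def e f s r) (h : star r * r = f)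
    {N : ℕ} (hN : 0 < N) :
    ‖dom f s t r N - sg s t (dom f s t r N) - r * P f t (2 * N + 1) 0‖ ≤ 4 / N + 2 / √(N : ℝ) := by
  have h1 : star r * r = (1 : ℝ) • f := by rw [one_smul, h]
  set b : ℕ → ℝ := fun j => Real.sin (ang N j) with hb
  set a : ℕ → ℝ := fun j => Real.cos (ang N j) with ha
  set J := 2 * N with hJ
  have a0 : a 0 = 1 := by simp [ha, ang_low (Nat.zero_le N)]
  have b0 : b 0 = 0 := by simp [hb, ang_low (Nat.zero_le N)]
  have aJ : a J = 0 := by simp [ha, ang_high hN le_rfl, hJ]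
  have aJ' : a (J + 1) = 0 := by simp [ha, ang_high hN (Nat.le_succ _), hJ]
  have bJ : b (J + 1) = b J := by simp [hb, ang_high hN le_rfl, ang_high hN (Nat.le_succ _), hJ]
  have e1 : V f s t r J * L f t J a = V f s t r (J + 1) * L f t (J + 1) a := by
    rw [V_mul_L ht, V_mul_L ht, sum_range_succ, sum_range_succ, sum_range_succ, aJ, aJ']
    simp only [zero_smul, add_zero]
    refine sum_congr rfl fun j hj => ?_
    have := mem_range.1 hj
    simp only [P, this, if_true, show j < J + 1 by omega]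
  have hV : V f s t r J * f = V f s t r J := by
    have := star_V_mul_V hs ht hr hr h1 J
    rw [one_smul] at this
    exact mul_of_star_mul ht.proj this
  have hU : U s t r N * f = U s t r N := by
    simp only [U, smul_mul_assoc, sum_mul, R_right ht hr]
  have e2 : sg s t (V f s t r J * L f t J a) = V f s t r (J + 1) * L f t (J + 1) (sh a) := by
    rw [← hV, ← ht.sg_mul_sg, sg_V ht hr, sg_L, sub_mul, mul_assoc, ht.P_mul_L (Nat.zero_le _)]
    simp [sh]
  have e3 : sg s t (U s t r N * L f t J b) = sg s t (U s t r N) * L f t (J + 1) (sh b) := by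
    rw [← sg_L, ht.sg_mul_sg, hU]
  have e4 : r * P f t (J + 1) 0 =
      V f s t r (J + 1) * L f t (J + 1) (fun j => if j = 0 then 1 else 0) := by
    rw [V_mul_L ht, sum_range_succ']; simp [R]
  have la : L f t (J + 1) (df a) =
      L f t (J + 1) a - L f t (J + 1) (sh a) - L f t (J + 1) (fun j => if j = 0 then 1 else 0) := by
    rw [L_sub, L_sub]
    refine L_congr f t _ fun j _ => ?_
    cases j <;> simp [df, sh, a0]
  have lb : L f t (J + 1) (df b) = L f t J b - L f t (J + 1) (sh b) := by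
    rw [← L_succ f t J bJ, L_sub]
    refine L_congr f t _ fun j _ => ?_
    cases j <;> simp [df, sh, b0]
  have key : dom f s t r N - sg s t (dom f s t r N) - r * P f t (J + 1) 0 =
      V f s t r (J + 1) * L f t (J + 1) (df a) + U s t r N * L f t (J + 1) (df b) +
        (U s t r N - sg s t (U s t r N)) * L f t (J + 1) (sh b) := by
    rw [dom, ← hJ, ← ha, ← hb, sg_add, e2, e3, e1, e4, la, lb]
    simp only [mul_sub, sub_mul]
    abel
  have hN' : (0 : ℝ) < N := by positivity
  have n1 : ‖V f s t r (J + 1)‖ ≤ 1 :=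
    norm_le_one_of (star_V_mul_V hs ht hr hr h1 _) (by rw [one_smul]; exact ht.proj.norm_le)
  have n2 : ‖U s t r N‖ ≤ 1 := by
    refine norm_le_one_of (star_U_mul_U hs hr hr h1 N) ?_
    rw [norm_smul, mul_one, Real.norm_of_nonneg (inv_nonneg.2 hN'.le), inv_mul_le_iff₀ hN', mul_one]
    refine (norm_sum_le_of_le (n := fun _ => 1) _ fun k _ => (ht.Q_proj k).norm_le).trans ?_
    simp
  have nR (k : ℕ) : ‖R s t r k‖ ≤ 1 := by
    refine norm_le_one_of (star_R_mul_R hs hr hr h1 k k) ?_
    rw [if_pos rfl, one_smul]; exact (ht.Q_proj k).norm_le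
  have n3 : ‖U s t r N - sg s t (U s t r N)‖ ≤ 2 / √(N : ℝ) := by
    rw [sub_sg_U, norm_smul, Real.norm_of_nonneg (by positivity), div_eq_inv_mul]
    gcongr
    refine (norm_sub_le _ _).trans ?_
    linarith [nR 0, nR N]
  have n4 : ‖L f t (J + 1) (df a)‖ ≤ 2 / N := by
    refine ht.norm_L _ fun j _ => ?_
    cases j with
    | zero => simp only [df, abs_zero]; positivity
    | succ j => exact (Real.abs_cos_sub_cos_le _ _).trans (ang_step hN j)
  have n5 : ‖L f t (J + 1) (df b)‖ ≤ 2 / N := by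
    refine ht.norm_L _ fun j _ => ?_
    cases j with
    | zero => simp only [df, abs_zero]; positivity
    | succ j => exact (Real.abs_sin_sub_sin_le _ _).trans (ang_step hN j)
  have n6 : ‖L f t (J + 1) (sh b)‖ ≤ 1 := by
    refine ht.norm_L _ fun j _ => ?_
    cases j with
    | zero => simp [sh]
    | succ j => exact Real.abs_sin_le_one _
  rw [key]
  refine (norm_add₃_le).trans ?_
  have m1 := (norm_mul_le _ _).trans (mul_le_mul n1 n4 (norm_nonneg _) zero_le_one)
  have m2 := (norm_mul_le _ _).trans (mul_le_mul n2 n5 (norm_nonneg _) zero_le_one)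
  have m3 := (norm_mul_le _ _).trans (mul_le_mul n3 n6 (norm_nonneg _) (by positivity))
  have : (4 : ℝ) / N = 2 / N + 2 / N := by ring
  linarith

theorem dom_comm (hs : CT e s) (ht : CT f t) {r : B} (hr : Def e f s r) (h : star r * r = f)
    {N : ℕ} (hN : 0 < N) (i : ι) :
    ‖s i * dom f s t r N - dom f s t r N * t i‖ ≤ 4 / N + 2 / √(N : ℝ) ∧
      ‖star (s i) * dom f s t r N - dom f s t r N * star (t i)‖ ≤ 4 / N + 2 / √(N : ℝ) := by
  have hd := dom_defect hs ht hr h hN
  set d := dom f s t r N with hdd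
  set E := d - sg s t d - r * P f t (2 * N + 1) 0 with hE
  have hq : P f t (2 * N + 1) 0 * t i = 0 := by
    rw [P, if_pos (Nat.succ_pos _), Q_succ, Q_zero, sub_mul, ht.sg_mul, ht.left, ht.right,
      ht.right, sub_self]
  constructor
  · have : s i * d - d * t i = -(E * t i) := by
      rw [hE, sub_mul, sub_mul, ht.sg_mul, mul_assoc r, hq, mul_assoc, hdd, dom_right ht]
      simp
    rw [this, norm_neg]
    exact (norm_mul_le _ _).trans
      ((mul_le_of_le_one_right (norm_nonneg _) (ht.norm_le i)).trans hd)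
  · have : star (s i) * d - d * star (t i) = star (s i) * E := by
      rw [hE, mul_sub, mul_sub, hs.star_mul_sg, ← mul_assoc _ r, hr.perp, hdd, left_dom hs hr]
      simp
    rw [this]
    refine (norm_mul_le _ _).trans ((mul_le_of_le_one_left (norm_nonneg _) ?_).trans hd)
    rw [norm_star]; exact hs.norm_le i

theorem exists_N {ε : ℝ} (hε : 0 < ε) : ∃ N : ℕ, 0 < N ∧ 4 / (N : ℝ) + 2 / √(N : ℝ) ≤ ε := by
  have h1 : Filter.Tendsto (fun N : ℕ => 4 / (N : ℝ) + 2 / √(N : ℝ)) Filter.atTop (nhds 0) := by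
    have := (tendsto_const_div_atTop_nhds_zero_nat (4 : ℝ)).add
      ((Real.tendsto_sqrt_atTop.comp tendsto_natCast_atTop_atTop).const_div_atTop (2 : ℝ))
    simpa using this
  obtain ⟨N, h2, h3⟩ := ((Filter.eventually_gt_atTop 0).and (h1.eventually_le_const hε)).exists
  exact ⟨N, h2, h3⟩

/-- Domination. -/
theorem exists_dom (hs : CT e s) (ht : CT f t) {κ : Type*} [DecidableEq κ] (r : κ → B)
    (hr : ∀ a b, star (r a) * r b = if a = b then f else 0) (he : ∀ a, e * r a = r a)
    (hp : ∀ a i, star (s i) * r a = 0) {ε : ℝ} (hε : 0 < ε) :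
    ∃ d : κ → B, (∀ a b, star (d a) * d b = if a = b then f else 0) ∧ (∀ a, e * d a = d a) ∧
      (∀ a, d a * f = d a) ∧ ∀ a i, ‖s i * d a - d a * t i‖ ≤ ε ∧
        ‖star (s i) * d a - d a * star (t i)‖ ≤ ε := by
  obtain ⟨N, hN, hε⟩ := exists_N hε
  have h1 (a : κ) : star (r a) * r a = f := by simpa using hr a a
  have hD (a : κ) : Def e f s (r a) := ⟨he a, mul_of_star_mul ht.proj (h1 a), hp a⟩
  refine ⟨fun a => dom f s t (r a) N, fun a b => ?_, fun a => left_dom hs (hD a) N,
    fun a => dom_right ht _ N, fun a i => ?_⟩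
  · rw [star_dom_mul_dom hs ht (hD a) (hD b) (c := if a = b then 1 else 0) ?_ hN]
    · split_ifs <;> simp
    · rw [hr]; split_ifs <;> simp
  · have := dom_comm hs ht (hD a) (h1 a) hN i
    exact ⟨this.1.trans hε, this.2.trans hε⟩

end Vale.Agent.P133OD
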