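import Mathlib

/-! Levels of a family of isometries with orthogonal ranges in a corner. -/

open Finset

namespace Vale.Agent.P133OD

variable {B : Type*} [NonUnitalCStarAlgebra B] {ι : Type*} [Fintype ι] [DecidableEq ι]

/-- `s i` are isometries of the corner `e B e` with orthogonal ranges. -/
structure CT (e : B) (s : ι → B) : Prop where
  proj : IsStarProjection e
  orth : ∀ i j, star (s i) * s j = if i = j then e else 0
  left : ∀ i, e * s i = s i

/-- The transfer map `x ↦ ∑ s_i x t_i*`. -/
def sg (s t : ι → B) (x : B) : B := ∑ i, s i * x * star (t i)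

theorem mul_of_star_mul {x f : B} (hf : IsStarProjection f) (h : star x * x = f) : x * f = x := by
  have h1 := hf.isIdempotentElem.eq
  have h2 := hf.isSelfAdjoint.star_eq
  have : star (x - x * f) * (x - x * f) = 0 := by
    simp only [star_sub, star_mul, h2, sub_mul, mul_sub, mul_assoc]
    rw [← mul_assoc (star x) x f, h, h1, h1]; simp
  exact (sub_eq_zero.1 ((CStarRing.star_mul_self_eq_zero_iff _).1 this)).symm

namespace CT

variable {e f g : B} {s t u : ι → B}

section
omit [Fintype ι]

theorem idem (h : CT e s) : e * e = e := h.proj.isIdempotentElem.eq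

theorem star_eq (h : CT e s) : star e = e := h.proj.isSelfAdjoint.star_eq

theorem right (h : CT e s) (i : ι) : s i * e = s i :=
  mul_of_star_mul h.proj (by simpa using h.orth i i)

theorem star_left (h : CT e s) (i : ι) : e * star (s i) = star (s i) := by
  have := congrArg star (h.right i); rwa [star_mul, h.star_eq] at this

theorem star_right (h : CT e s) (i : ι) : star (s i) * e = star (s i) := by
  have := congrArg star (h.left i); rwa [star_mul, h.star_eq] at this

theorem norm_le (h : CT e s) (i : ι) : ‖s i‖ ≤ 1 := by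
  have h1 : ‖s i‖ * ‖s i‖ ≤ 1 := by
    rw [← CStarRing.norm_star_mul_self, h.orth]; simpa using h.proj.norm_le
  nlinarith [norm_nonneg (s i)]

end

theorem star_mul_sg (h : CT e s) (i : ι) (x : B) :
    star (s i) * sg s t x = e * x * star (t i) := by
  simp only [sg, mul_sum, ← mul_assoc, h.orth, ite_mul, zero_mul, sum_ite_eq, mem_univ, if_true]

theorem sg_mul (h : CT f t) (i : ι) (x : B) : sg s t x * t i = s i * x * f := by
  simp only [sg, sum_mul, mul_assoc, h.orth, mul_ite, mul_zero, sum_ite_eq', mem_univ, if_true]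

theorem sg_mul_sg (h : CT f t) (x y : B) : sg s t x * sg t u y = sg s u (x * f * y) := by
  conv_lhs => rw [sg, sum_mul]
  refine sum_congr rfl fun i _ => ?_
  rw [mul_assoc, h.star_mul_sg]; simp only [mul_assoc]

theorem left_sg (h : CT e s) (x : B) : e * sg s t x = sg s t x := by
  simp only [sg, mul_sum, ← mul_assoc, h.left]

theorem sg_right (h : CT f t) (x : B) : sg s t x * f = sg s t x := by
  simp only [sg, sum_mul, mul_assoc, h.star_right]

end CT

section sg
omit [DecidableEq ι]
variable (s t : ι → B)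

theorem star_sg (x : B) : star (sg s t x) = sg t s (star x) := by
  simp only [sg, star_sum, star_mul, star_star, mul_assoc]

theorem sg_zero : sg s t 0 = 0 := by simp [sg]

theorem sg_add (x y : B) : sg s t (x + y) = sg s t x + sg s t y := by
  simp only [sg, mul_add, add_mul, sum_add_distrib]

theorem sg_sub (x y : B) : sg s t (x - y) = sg s t x - sg s t y := by
  simp only [sg, mul_sub, sub_mul, sum_sub_distrib]

theorem sg_smul (c : ℝ) (x : B) : sg s t (c • x) = c • sg s t x := by
  simp only [sg, mul_smul_comm, smul_mul_assoc, smul_sum]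

theorem sg_sum {κ : Type*} (T : Finset κ) (x : κ → B) :
    sg s t (∑ k ∈ T, x k) = ∑ k ∈ T, sg s t (x k) := by
  simp only [sg, mul_sum, sum_mul]; exact sum_comm

end sg

/-- `Q k = ∑_{|μ| = k} t_μ t_μ*`. -/
def Q (f : B) (t : ι → B) (k : ℕ) : B := (sg t t)^[k] f

/-- The levels `Q j - Q (j + 1)`, `j < J`, and the tail `Q J`. -/
def P (f : B) (t : ι → B) (J j : ℕ) : B := if j < J then Q f t j - Q f t (j + 1) else Q f t j

/-- The function `a` of the level. -/
noncomputable def L (f : B) (t : ι → B) (J : ℕ) (a : ℕ → ℝ) : B := ∑ j ∈ range (J + 1), a j • P f t J j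

/-- The shift of a sequence. -/
def sh (a : ℕ → ℝ) : ℕ → ℝ
  | 0 => 0
  | j + 1 => a j

section
omit [DecidableEq ι]
variable (f : B) (t : ι → B)

theorem Q_zero : Q f t 0 = f := rfl

theorem Q_succ (k : ℕ) : Q f t (k + 1) = sg t t (Q f t k) := Function.iterate_succ_apply' _ _ _

theorem sg_P (J j : ℕ) : sg t t (P f t J j) = P f t (J + 1) (j + 1) := by
  simp only [P, Nat.add_lt_add_iff_right]
  split_ifs
  · rw [sg_sub, ← Q_succ, ← Q_succ]
  · rw [← Q_succ]

theorem sg_L (J : ℕ) (a : ℕ → ℝ) : sg t t (L f t J a) = L f t (J + 1) (sh a) := by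
  conv_rhs => rw [L, sum_range_succ']
  simp only [L, sg_sum, sg_smul, sg_P, sh, zero_smul, add_zero]

theorem L_succ (J : ℕ) {a : ℕ → ℝ} (h : a (J + 1) = a J) : L f t (J + 1) a = L f t J a := by
  rw [L, L, sum_range_succ, sum_range_succ, sum_range_succ, add_assoc, h, ← smul_add]
  congr 1
  · refine sum_congr rfl fun j hj => ?_
    have := mem_range.1 hj
    simp only [P, this, if_true, show j < J + 1 by omega]
  · simp [P]

theorem sum_P (J : ℕ) : ∑ j ∈ range (J + 1), P f t J j = f := by
  have : ∑ j ∈ range J, P f t J j = ∑ j ∈ range J, (Q f t j - Q f t (j + 1)) :=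
    sum_congr rfl fun j hj => if_pos (mem_range.1 hj)
  rw [sum_range_succ, this, sum_range_sub']
  simp [P, Q_zero]

theorem L_one (J : ℕ) : L f t J (fun _ => 1) = f := by simp only [L, one_smul, sum_P]

theorem L_add (J : ℕ) (a b : ℕ → ℝ) : L f t J a + L f t J b = L f t J (fun j => a j + b j) := by
  simp only [L, add_smul, sum_add_distrib]

theorem L_sub (J : ℕ) (a b : ℕ → ℝ) : L f t J a - L f t J b = L f t J (fun j => a j - b j) := by
  simp only [L, sub_smul, sum_sub_distrib]

theorem L_congr (J : ℕ) {a b : ℕ → ℝ} (h : ∀ j ≤ J, a j = b j) : L f t J a = L f t J b :=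
  sum_congr rfl fun j hj => by rw [h j (Nat.lt_succ_iff.1 (mem_range.1 hj))]

end

namespace CT

variable {f : B} {t : ι → B}

theorem left_Q (h : CT f t) : ∀ k, f * Q f t k = Q f t k
  | 0 => h.idem
  | k + 1 => by rw [Q_succ, h.left_sg]

theorem Q_right (h : CT f t) : ∀ k, Q f t k * f = Q f t k
  | 0 => h.idem
  | k + 1 => by rw [Q_succ, h.sg_right]

theorem star_Q (h : CT f t) : ∀ k, star (Q f t k) = Q f t k
  | 0 => h.star_eq
  | k + 1 => by rw [Q_succ, star_sg, star_Q h k]

theorem Q_mul_Q (h : CT f t) : ∀ k l, Q f t k * Q f t l = Q f t (max k l)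
  | 0, l => by rw [Q_zero, h.left_Q]; simp
  | k + 1, 0 => by rw [Q_zero, h.Q_right]; simp
  | k + 1, l + 1 => by
    rw [Q_succ, Q_succ, h.sg_mul_sg, h.Q_right, Q_mul_Q h k l, ← Q_succ, Nat.succ_max_succ]

theorem Q_proj (h : CT f t) (k : ℕ) : IsStarProjection (Q f t k) :=
  ⟨by rw [IsIdempotentElem, h.Q_mul_Q, max_self], h.star_Q k⟩

theorem star_P (h : CT f t) (J j : ℕ) : star (P f t J j) = P f t J j := by
  unfold P; split_ifs <;> simp [h.star_Q]

theorem P_mul_Q (h : CT f t) {J j k : ℕ} (hk : k ≤ j) : P f t J j * Q f t k = P f t J j := by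
  unfold P
  split_ifs
  · rw [sub_mul, h.Q_mul_Q, h.Q_mul_Q, max_eq_left hk, max_eq_left (by omega)]
  · rw [h.Q_mul_Q, max_eq_left hk]

theorem P_mul_P (h : CT f t) {J j k : ℕ} (hj : j ≤ J) (hk : k ≤ J) :
    P f t J j * P f t J k = if j = k then P f t J j else 0 := by
  unfold P
  rcases lt_trichotomy j k with hl | rfl | hl
  · rw [if_neg hl.ne, if_pos (show j < J by omega)]
    split_ifs <;> simp only [sub_mul, mul_sub, h.Q_mul_Q] <;>
      simp [max_eq_right hl.le, max_eq_right (show j + 1 ≤ k from hl),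
        max_eq_right (show j ≤ k + 1 by omega)]
  · rw [if_pos rfl]
    split_ifs <;> simp [sub_mul, mul_sub, h.Q_mul_Q]
  · rw [if_neg hl.ne', if_pos (show k < J by omega)]
    split_ifs <;> simp only [sub_mul, mul_sub, h.Q_mul_Q] <;>
      simp [max_eq_left hl.le, max_eq_left (show k + 1 ≤ j from hl),
        max_eq_left (show k ≤ j + 1 by omega)]

theorem P_mul_L (h : CT f t) {J j : ℕ} (hj : j ≤ J) (a : ℕ → ℝ) :
    P f t J j * L f t J a = a j • P f t J j := by
  rw [L, mul_sum, sum_eq_single j]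
  · rw [mul_smul_comm, h.P_mul_P hj hj, if_pos rfl]
  · intro k hk hkj
    rw [mul_smul_comm, h.P_mul_P hj (Nat.lt_succ_iff.1 (mem_range.1 hk)), if_neg hkj.symm,
      smul_zero]
  · intro hn; exact absurd (mem_range.2 (by omega)) hn

theorem star_L (h : CT f t) (J : ℕ) (a : ℕ → ℝ) : star (L f t J a) = L f t J a := by
  simp only [L, star_sum, star_smul, star_trivial, h.star_P]

theorem L_mul_L (h : CT f t) (J : ℕ) (a b : ℕ → ℝ) :
    L f t J a * L f t J b = L f t J (fun j => a j * b j) := by
  conv_lhs => rw [L, sum_mul]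
  refine sum_congr rfl fun j hj => ?_
  rw [smul_mul_assoc, h.P_mul_L (Nat.lt_succ_iff.1 (mem_range.1 hj)), smul_smul]

theorem left_L (h : CT f t) (J : ℕ) (a : ℕ → ℝ) : f * L f t J a = L f t J a := by
  nth_rewrite 1 [← L_one f t J]
  rw [h.L_mul_L]; simp

theorem L_right (h : CT f t) (J : ℕ) (a : ℕ → ℝ) : L f t J a * f = L f t J a := by
  have := congrArg star (h.left_L J a)
  rwa [star_mul, h.star_L, h.star_eq] at this

theorem norm_L (h : CT f t) (J : ℕ) {a : ℕ → ℝ} {c : ℝ} (hc : ∀ j ≤ J, |a j| ≤ c) :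
    ‖L f t J a‖ ≤ c := by
  let _ := CStarAlgebra.spectralOrder B
  have _ := CStarAlgebra.spectralOrderedRing B
  have hc0 : 0 ≤ c := (abs_nonneg _).trans (hc 0 (Nat.zero_le _))
  have h1 : star (L f t J a) * L f t J a ≤ (c * c) • f := by
    rw [← sub_nonneg, h.star_L, h.L_mul_L]
    have h2 : (c * c) • f = L f t J (fun _ => c * c) := by
      simp only [L, ← smul_sum, sum_P]
    rw [h2, L_sub, L_congr f t J (b := fun j => √(c * c - a j * a j) * √(c * c - a j * a j)),
      ← h.L_mul_L]
    · nth_rewrite 1 [← h.star_L]; exact star_mul_self_nonneg _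
    · intro j hj
      rw [Real.mul_self_sqrt]
      have := abs_le.1 (hc j hj); nlinarith
  have h3 := CStarAlgebra.norm_le_norm_of_nonneg_of_le (star_mul_self_nonneg _) h1
  rw [CStarRing.norm_star_mul_self, norm_smul, Real.norm_of_nonneg (mul_nonneg hc0 hc0)] at h3
  have h4 : c * c * ‖f‖ ≤ c * c := mul_le_of_le_one_right (mul_nonneg hc0 hc0) h.proj.norm_le
  exact (mul_self_le_mul_self_iff (norm_nonneg _) hc0).2 (h3.trans h4)

end CT

end Vale.Agent.P133OD
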